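import Vale.Agent.P133.W634.H766.Mul
import Vale.Agent.P133.W634.T
import Mathlib.Topology.UrysohnsLemma

/-!
P133 (helper634's line W634, block [A], helper766): the gluing step, with the letters as data.
-/

open scoped ComplexOrder
open Finset

namespace Vale.Agent.P133.W634.H766

open Vale.Agent.P133.R2.H28 Vale.Agent.P133.R2.H474 Vale.Agent.P133.W634

universe u v

theorem sa_sum {A : Type u} [NonUnitalCStarAlgebra A] (s : Finset ℕ) {f : ℕ → A}
    (h : ∀ k, IsSelfAdjoint (f k)) : IsSelfAdjoint (∑ k ∈ s, f k) := by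
  show star _ = _
  rw [star_sum]
  exact sum_congr rfl fun k _ => (h k).star_eq

theorem glue_abs {X : Type v} [TopologicalSpace X] [T2Space X] [LocallyCompactSpace X]
    {B : X → Type u} [∀ t, NonUnitalCStarAlgebra (B t)] [∀ t, PartialOrder (B t)]
    [∀ t, StarOrderedRing (B t)] {A : Type u} [NonUnitalCStarAlgebra A]
    {π : ∀ t, A →⋆ₙₐ[ℂ] B t}
    (hn : ∀ (a : A) (r : ℝ), 0 ≤ r → (∀ t, ‖π t a‖ ≤ r) → ‖a‖ ≤ r)
    (hm : ∀ f : C(X, ℝ), (∀ t, 0 ≤ f t ∧ f t ≤ 1) → ∀ a : A, ∃ b : A,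
      ∀ t, π t b = (f t : ℂ) • π t a)
    (hc : ∀ b : A, Continuous fun t => ‖π t b‖)
    (hX : ∀ K : Set X, IsCompact K → WeaklyInfDim K)
    {a : A} {S K W V : Set X} (hS : IsCompact S) (hK : IsCompact K)
    (hW : IsOpen W) (hV : IsOpen V) (hSW : S ⊆ W) (hKV : K ⊆ V)
    {x₁ F T₂ T₃ : A} {gg xi e : ℕ → A}
    (x₁s : IsSelfAdjoint x₁) (x₁a : x₁ ∈ her a) (Fs : IsSelfAdjoint F) (Fa : F ∈ her a)
    (T₂s : IsSelfAdjoint T₂) (T₂a : T₂ ∈ her a) (T₃s : IsSelfAdjoint T₃) (T₃a : T₃ ∈ her a)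
    (xis : ∀ k, IsSelfAdjoint (xi k)) (xia : ∀ k, xi k ∈ her a)
    (es : ∀ k, IsSelfAdjoint (e k)) (ea : ∀ k, e k ∈ her a)
    (hletW : ∀ t ∈ W, 0 ≤ π t x₁ ∧ ‖π t x₁‖ = 1 ∧ 0 ≤ π t F ∧ ‖π t F‖ = 1 ∧
      π t x₁ * π t F = 0)
    (hletV : ∀ t ∈ V, 0 ≤ π t T₂ ∧ ‖π t T₂‖ = 1 ∧ 0 ≤ π t T₃ ∧ ‖π t T₃‖ = 1 ∧
      π t T₂ * π t T₃ = 0)
    (hlet : ∀ t ∈ W, t ∈ V → ∀ (N : ℕ) (c a : ℕ → ℝ),
      (∀ k, 0 < c k → 1 - (1 / 2) ^ k / 100 < ‖π t (gg k)‖) →
      (∀ k, 0 < a k → ‖π t (gg k)‖ < 1 - (1 / 2) ^ k / 200) →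
      Letters N c a qq (π t x₁) (π t F) (π t T₂) (π t T₃) (fun k => π t (xi k))
        (fun k => π t (e k))) :
    ∃ h' : A, IsSelfAdjoint h' ∧ h' ∈ her a ∧
      ∀ t ∈ S ∪ K, ¬ π t h' ≤ 0 ∧ ¬ 0 ≤ π t h' := by
  classical
  -- the function `σ`
  have hSK : IsCompact (S ∪ K) := hS.union hK
  have hC0 : IsCompact ((S ∪ K) \ V) := hSK.diff hV
  have hC1 : IsClosed ((S ∪ K) \ W) := (hSK.diff hW).isClosed
  have hd : Disjoint ((S ∪ K) \ V) ((S ∪ K) \ W) := by
    rw [Set.disjoint_left]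
    rintro t ⟨h1, h2⟩ ⟨-, h3⟩
    rcases h1 with h | h
    · exact h3 (hSW h)
    · exact h2 (hKV h)
  obtain ⟨f, hf0, hf1, hf⟩ := exists_continuous_zero_one_of_isCompact hC0 hC1 hd
  let σ : C(X, ℝ) := ⟨fun t => 3 * f t, continuous_const.mul f.continuous⟩
  have hσf : ∀ t, σ t = 3 * f t := fun _ => rfl
  have hσ0 : ∀ t, 0 ≤ σ t := fun t => by rw [hσf]; linarith [(hf t).1]
  have hσ3 : ∀ t, σ t ≤ 3 := fun t => by rw [hσf]; linarith [(hf t).2]
  have hσW : ∀ t ∈ S ∪ K, σ t < 3 → t ∈ W := fun t ht h => by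
    by_contra hw
    have h1 : f t = 1 := hf1 ⟨ht, hw⟩
    rw [hσf, h1] at h
    linarith
  have hσV : ∀ t ∈ S ∪ K, 0 < σ t → t ∈ V := fun t ht h => by
    by_contra hw
    have h1 : f t = 0 := hf0 ⟨ht, hw⟩
    rw [hσf, h1] at h
    linarith
  have hK' : IsCompact ((S ∪ K) ∩ {t | 1 / 2 ≤ σ t ∧ σ t ≤ 5 / 2}) :=
    hSK.inter_right ((isClosed_le continuous_const σ.continuous).inter
      (isClosed_le σ.continuous continuous_const))
  obtain ⟨N, c, d, hc0, hd0, hs1, hcd, hK1⟩ := exists_weights hK' (hX _ hK')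
    (fun n => {t | 1 - (1 / 2) ^ n / 100 < ‖π t (gg n)‖})
    (fun n => {t | ‖π t (gg n)‖ < 1 - (1 / 2) ^ n / 200})
    (fun n => isOpen_lt continuous_const (hc _)) (fun n => isOpen_lt (hc _) continuous_const)
    (fun n t _ => by
      rcases lt_or_ge (1 - (1 / 2) ^ n / 100) ‖π t (gg n)‖ with h | h
      · exact Or.inl h
      · refine Or.inr (lt_of_le_of_lt h ?_)
        have : (0 : ℝ) < (1 / 2) ^ n := by positivity
        linarith)
  let α : C(X, ℝ) := ⟨fun t => ∑ n ∈ range N, c n t,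
    continuous_finsetSum _ fun n _ => (c n).continuous⟩
  let β : C(X, ℝ) := ⟨fun t => ∑ n ∈ range N, d n t,
    continuous_finsetSum _ fun n _ => (d n).continuous⟩
  have hα : ∀ t, α t = ∑ n ∈ range N, c n t := fun _ => rfl
  have hβ : ∀ t, β t = ∑ n ∈ range N, d n t := fun _ => rfl
  have hα0 : ∀ t, 0 ≤ α t := fun t => by rw [hα]; exact sum_nonneg fun n _ => hc0 n t
  have hβ0 : ∀ t, 0 ≤ β t := fun t => by rw [hβ]; exact sum_nonneg fun n _ => hd0 n t
  have hαβ : ∀ t, α t + β t ≤ 1 := fun t => by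
    rw [hα, hβ, ← sum_add_distrib]; exact hs1 t
  have hα1 : ∀ t, α t ≤ 1 := fun t => by linarith [hαβ t, hβ0 t]
  have hβ1 : ∀ t, β t ≤ 1 := fun t => by linarith [hαβ t, hα0 t]
  have hck : ∀ k < N, ∀ t, c k t ≤ 1 := fun k hk t => by
    refine le_trans ?_ (hα1 t)
    rw [hα]
    exact single_le_sum (f := fun n => c n t) (fun n _ => hc0 n t) (mem_range.2 hk)
  have hdk : ∀ k < N, ∀ t, d k t ≤ 1 := fun k hk t => by
    refine le_trans ?_ (hβ1 t)
    rw [hβ]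
    exact single_le_sum (f := fun n => d n t) (fun n _ => hd0 n t) (mem_range.2 hk)
  -- the terms
  obtain ⟨Y₁, Y₁s, Y₁a, hY₁⟩ := mul_fun hn hm
    ⟨fun t => max 0 (1 + β t - σ t), by fun_prop⟩ (fun t => ⟨le_max_left _ _, by
      show max 0 (1 + β t - σ t) ≤ 2
      exact max_le (by norm_num) (by linarith [hβ1 t, hσ0 t])⟩) x₁s x₁a
  obtain ⟨Y₂, Y₂s, Y₂a, hY₂⟩ := mul_fun hn hm
    ⟨fun t => max 0 (σ t - 1 - α t), by fun_prop⟩ (fun t => ⟨le_max_left _ _, by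
      show max 0 (σ t - 1 - α t) ≤ 2
      exact max_le (by norm_num) (by linarith [hα0 t, hσ3 t])⟩) T₂s T₂a
  obtain ⟨Z₁, Z₁s, Z₁a, hZ₁⟩ := mul_fun hn hm
    ⟨fun t => max 0 (1 + α t - σ t), by fun_prop⟩ (fun t => ⟨le_max_left _ _, by
      show max 0 (1 + α t - σ t) ≤ 2
      exact max_le (by norm_num) (by linarith [hα1 t, hσ0 t])⟩) Fs Fa
  obtain ⟨Z₂, Z₂s, Z₂a, hZ₂⟩ := mul_fun hn hm
    ⟨fun t => max 0 (σ t - 1 - β t), by fun_prop⟩ (fun t => ⟨le_max_left _ _, by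
      show max 0 (σ t - 1 - β t) ≤ 2
      exact max_le (by norm_num) (by linarith [hβ0 t, hσ3 t])⟩) T₃s T₃a
  have hρσ : Continuous fun t => rho (σ t) := rho_cont.comp σ.continuous
  have hx : ∀ k, ∃ b : A, IsSelfAdjoint b ∧ b ∈ her a ∧
      (k < N → ∀ t, π t b = (rho (σ t) * c k t) • π t (xi k * xi k)) := by
    intro k
    by_cases hk : k < N
    · obtain ⟨b, h1, h2, h3⟩ := mul_fun hn hm
        ⟨fun t => rho (σ t) * c k t, hρσ.mul (c k).continuous⟩ (fun t => ⟨by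
          show 0 ≤ rho (σ t) * c k t
          exact mul_nonneg (rho_nonneg _) (hc0 k t), by
          show rho (σ t) * c k t ≤ 2
          have := mul_le_mul (rho_le (σ t)) (hck k hk t) (hc0 k t) zero_le_one
          linarith⟩) (e := xi k * xi k) (by
            show star (xi k * xi k) = xi k * xi k
            rw [star_mul, (xis k).star_eq]) (her_mul (xia k) (xia k))
      exact ⟨b, h1, h2, fun _ => h3⟩
    · exact ⟨0, IsSelfAdjoint.zero A, (her a).zero_mem, fun h => absurd h hk⟩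
  have he : ∀ k, ∃ b : A, IsSelfAdjoint b ∧ b ∈ her a ∧
      (k < N → ∀ t, π t b = (rho (σ t) * d k t) • π t (e k)) := by
    intro k
    by_cases hk : k < N
    · obtain ⟨b, h1, h2, h3⟩ := mul_fun hn hm
        ⟨fun t => rho (σ t) * d k t, hρσ.mul (d k).continuous⟩ (fun t => ⟨by
          show 0 ≤ rho (σ t) * d k t
          exact mul_nonneg (rho_nonneg _) (hd0 k t), by
          show rho (σ t) * d k t ≤ 2
          have := mul_le_mul (rho_le (σ t)) (hdk k hk t) (hd0 k t) zero_le_one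
          linarith⟩) (es k) (ea k)
      exact ⟨b, h1, h2, fun _ => h3⟩
    · exact ⟨0, IsSelfAdjoint.zero A, (her a).zero_mem, fun h => absurd h hk⟩
  choose bx bxs bxa hbx using hx
  choose be bes bea hbe using he
  refine ⟨(Y₁ + ∑ k ∈ range N, bx k + Y₂) - (Z₁ + ∑ k ∈ range N, be k + Z₂),
    ((Y₁s.add (sa_sum _ bxs)).add Y₂s).sub ((Z₁s.add (sa_sum _ bes)).add Z₂s),
    (her a).sub_mem ((her a).add_mem ((her a).add_mem Y₁a
      ((her a).sum_mem fun k _ => bxa k)) Y₂a) ((her a).add_mem ((her a).add_mem Z₁a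
      ((her a).sum_mem fun k _ => bea k)) Z₂a), fun t ht => ?_⟩
  have key : π t ((Y₁ + ∑ k ∈ range N, bx k + Y₂) - (Z₁ + ∑ k ∈ range N, be k + Z₂)) =
      (max 0 (1 + β t - σ t) • π t x₁ +
        rho (σ t) • ∑ k ∈ range N, c k t • (π t (xi k) * π t (xi k)) +
        max 0 (σ t - 1 - α t) • π t T₂) -
      (max 0 (1 + α t - σ t) • π t F + rho (σ t) • ∑ k ∈ range N, d k t • π t (e k) +
        max 0 (σ t - 1 - β t) • π t T₃) := by
    have e1 : π t (∑ k ∈ range N, bx k) =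
        rho (σ t) • ∑ k ∈ range N, c k t • (π t (xi k) * π t (xi k)) := by
      rw [map_sum, smul_sum]
      exact sum_congr rfl fun k hk => by
        rw [hbx k (mem_range.1 hk) t, map_mul, mul_smul]
    have e2 : π t (∑ k ∈ range N, be k) =
        rho (σ t) • ∑ k ∈ range N, d k t • π t (e k) := by
      rw [map_sum, smul_sum]
      exact sum_congr rfl fun k hk => by
        rw [hbe k (mem_range.1 hk) t, mul_smul]
    rw [map_sub, map_add, map_add, map_add, map_add, e1, e2, hY₁, hY₂, hZ₁, hZ₂]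
    rfl
  rw [key]
  rcases le_or_gt (σ t) (1 / 2) with h1 | h1
  · -- left
    have htW := hσW t ht (by linarith)
    obtain ⟨l1, l2, l3, l4, l5⟩ := hletW t htW
    rw [rho_zero (Or.inl h1), zero_smul, zero_smul, add_zero, add_zero,
      max_eq_left (by linarith [hα0 t] : σ t - 1 - α t ≤ 0),
      max_eq_left (by linarith [hβ0 t] : σ t - 1 - β t ≤ 0), zero_smul, zero_smul, add_zero,
      add_zero, max_eq_right (by linarith [hβ0 t] : 0 ≤ 1 + β t - σ t),
      max_eq_right (by linarith [hα0 t] : 0 ≤ 1 + α t - σ t)]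
    exact two_letters l1 l2 l3 l4 l5 (by linarith [hβ0 t]) (by linarith [hα0 t])
  rcases le_or_gt (5 / 2) (σ t) with h2 | h2
  · -- right
    have htV := hσV t ht (by linarith)
    obtain ⟨l1, l2, l3, l4, l5⟩ := hletV t htV
    rw [rho_zero (Or.inr h2), zero_smul, zero_smul, add_zero, add_zero,
      max_eq_left (by linarith [hβ1 t] : 1 + β t - σ t ≤ 0),
      max_eq_left (by linarith [hα1 t] : 1 + α t - σ t ≤ 0), zero_smul, zero_smul, zero_add,
      zero_add, max_eq_right (by linarith [hα1 t] : 0 ≤ σ t - 1 - α t),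
      max_eq_right (by linarith [hβ1 t] : 0 ≤ σ t - 1 - β t)]
    exact two_letters l1 l2 l3 l4 l5 (by linarith [hα1 t]) (by linarith [hβ1 t])
  -- middle
  have htW := hσW t ht (by linarith)
  have htV := hσV t ht (by linarith)
  obtain ⟨hs, hcG, hdH⟩ := hK1 t ⟨ht, h1.le, h2.le⟩
  have hL := hlet t htW htV N (fun k => c k t) (fun k => d k t) hcG hdH
  have hC : Coef N (σ t) (rho (σ t)) (α t) (β t) (fun k => c k t) (fun k => d k t) qq :=
    { c0 := fun k => hc0 k t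
      a0 := fun k => hd0 k t
      ca := fun k => hcd k t
      hα := hα t
      hβ := hβ t
      one := by rw [hα, hβ, ← sum_add_distrib]; exact hs
      ρ0 := rho_pos h1 h2
      ρ1 := rho_one
      ρle := rho_le _
      s0 := h1
      s1 := h2
      q0 := qq_nonneg
      qanti := qq_anti
      qsum := qq_sum N
      q1 := qq_zero }
  exact ⟨not_nonpos hC hL, not_nonneg hC hL⟩

end Vale.Agent.P133.W634.H766
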