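import Vale.Agent.P133.W634.H766.Abs
import Vale.Agent.P133.W634.Letters
import Vale.Agent.P133.W634.H665.Spec

/-!
P133 (helper634's line W634, block [A], helper766): the gluing step.
-/

open scoped ComplexOrder
open Finset

namespace Vale.Agent.P133.W634.H766

open Vale.Agent.P133.R2.H28 Vale.Agent.P133.R2.H474 Vale.Agent.P133.W634

universe u v

theorem qq_eq : Vale.Agent.P133.W634.qq = qq := by
  funext k
  rw [Vale.Agent.P133.W634.qq, bb, qq]
  ring

theorem norm_ramp {B : Type u} [NonUnitalCStarAlgebra B] {b : B} (hb : IsSelfAdjoint b)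
    {g : ℝ → ℝ} (hg : Continuous g) (hg0 : g 0 = 0) {κ : ℝ} (hκ : 0 < κ)
    (h : κ < ‖cfcₙ (fun s : ℝ => max (g s) 0) b‖) :
    ‖cfcₙ (fun s : ℝ => ramp 0 κ (g s)) b‖ = 1 := by
  have hc : Continuous fun s => ramp 0 κ (g s) := (ramp_cont 0 κ).comp hg
  have h0 : ramp 0 κ (g 0) = 0 := by rw [hg0]; exact ramp_eq_zero hκ le_rfl
  refine le_antisymm (norm_cfcₙ_le fun s _ => by
    rw [Real.norm_of_nonneg (ramp_nonneg _ _ _)]; exact ramp_le_one _ _ _) ?_
  by_contra hlt
  push Not at hlt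
  refine absurd h (not_lt.2 (norm_cfcₙ_le fun s hs => ?_))
  have h1 := norm_apply_le_norm_cfcₙ (fun s => ramp 0 κ (g s)) b hs hc.continuousOn h0 hb
  rw [Real.norm_of_nonneg (le_max_right _ _)]
  refine max_le ?_ hκ.le
  by_contra h2
  push Not at h2
  have h3 : ramp 0 κ (g s) = 1 := ramp_eq_one hκ h2.le
  rw [h3, norm_one] at h1
  linarith

/-- a common lower bound on a compact set -/
theorem exists_lower {X : Type v} [TopologicalSpace X] {S : Set X} (hS : IsCompact S)
    {f g : X → ℝ} (hf : Continuous f) (hg : Continuous g) (hf0 : ∀ t ∈ S, 0 < f t)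
    (hg0 : ∀ t ∈ S, 0 < g t) : ∃ κ : ℝ, 0 < κ ∧ ∀ t ∈ S, κ < f t ∧ κ < g t := by
  rcases S.eq_empty_or_nonempty with rfl | hne
  · exact ⟨1, one_pos, fun t ht => absurd ht (Set.notMem_empty t)⟩
  obtain ⟨x, hx, hmin⟩ := hS.exists_isMinOn hne (hf.min hg).continuousOn
  have hm : 0 < min (f x) (g x) := lt_min (hf0 x hx) (hg0 x hx)
  refine ⟨min (f x) (g x) / 2, half_pos hm, fun t ht => ?_⟩
  have h1 : min (f x) (g x) ≤ min (f t) (g t) := hmin ht
  have h2 := min_le_left (f t) (g t)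
  have h3 := min_le_right (f t) (g t)
  constructor <;> linarith

/-- **Block [A]**: the gluing step. -/
theorem glue : AStmt.{u, v} := by
  intro X _ _ _ B _ _ _ A _ _ _ π hπ hX a ha P hPs hPa V hV hPV S K hS hK hKV h hh hha hgood
  obtain ⟨-, hn, -, hm, hc⟩ := hπ
  have cp : Continuous fun s : ℝ => max s 0 := by fun_prop
  have cn : Continuous fun s : ℝ => max (-s) 0 := by fun_prop
  set hp : A := cfcₙ (fun s : ℝ => max s 0) h with hhp
  set hq : A := cfcₙ (fun s : ℝ => max (-s) 0) h with hhq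
  have mp : ∀ t, π t hp = cfcₙ (fun s : ℝ => max s 0) (π t h) := fun t =>
    map_cfcn (π t) cp (by simp) hh
  have mq : ∀ t, π t hq = cfcₙ (fun s : ℝ => max (-s) 0) (π t h) := fun t =>
    map_cfcn (π t) cn (by simp) hh
  have hsa : ∀ t, IsSelfAdjoint (π t h) := fun t => hh.map (π t)
  have e1 : ∀ t, π t h = π t hp - π t hq := by
    intro t
    rw [mp, mq, ← cfcₙ_sub (fun s : ℝ => max s 0) (fun s : ℝ => max (-s) 0) (π t h)
      cp.continuousOn (by simp) cn.continuousOn (by simp)]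
    have : (fun s : ℝ => max s 0 - max (-s) 0) = fun s => s := by
      funext s
      rcases le_total s 0 with h1 | h1
      · rw [max_eq_right h1, max_eq_left (neg_nonneg.2 h1)]; ring
      · rw [max_eq_left h1, max_eq_right (neg_nonpos.2 h1)]; ring
    rw [this, cfcₙ_id' ℝ (π t h) (hsa t)]
  have hpos : ∀ t ∈ S, 0 < ‖π t hp‖ := by
    intro t ht
    rw [norm_pos_iff]
    intro h0
    refine (hgood t ht).1 ?_
    rw [e1, h0, zero_sub, mq]
    exact neg_nonpos.2 (cfcₙ_nonneg fun s _ => le_max_right _ _)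
  have hneg : ∀ t ∈ S, 0 < ‖π t hq‖ := by
    intro t ht
    rw [norm_pos_iff]
    intro h0
    refine (hgood t ht).2 ?_
    rw [e1, h0, sub_zero, mp]
    exact cfcₙ_nonneg fun s _ => le_max_right _ _
  obtain ⟨κ, hκ, hκS⟩ := exists_lower hS (hc hp) (hc hq) hpos hneg
  -- the letters
  have c1 : Continuous fun s : ℝ => ramp 0 κ s := ramp_cont 0 κ
  have c2 : Continuous fun s : ℝ => ramp 0 κ (-s) := (ramp_cont 0 κ).comp continuous_neg
  have z1 : ramp 0 κ 0 = 0 := ramp_eq_zero hκ le_rfl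
  have z2 : ramp 0 κ (-0) = 0 := by rw [neg_zero]; exact z1
  set x₁ : A := cfcₙ (fun s : ℝ => ramp 0 κ s) h with hx₁
  set w : A := cfcₙ (fun s : ℝ => ramp 0 κ (-s)) h with hw
  have m1 : ∀ t, π t x₁ = cfcₙ (fun s : ℝ => ramp 0 κ s) (π t h) := fun t =>
    map_cfcn (π t) c1 z1 hh
  have m2 : ∀ t, π t w = cfcₙ (fun s : ℝ => ramp 0 κ (-s)) (π t h) := fun t =>
    map_cfcn (π t) c2 z2 hh
  have x₁s : IsSelfAdjoint x₁ := cfcₙ_predicate (p := IsSelfAdjoint) _ _
  have ws : IsSelfAdjoint w := cfcₙ_predicate (p := IsSelfAdjoint) _ _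
  have x₁a : x₁ ∈ her a := her_cfc hh hha c1 z1
  have wa : w ∈ her a := her_cfc hh hha c2 z2
  have asa : star a = a := (IsSelfAdjoint.of_nonneg ha).star_eq
  have n1 : ∀ t, 0 ≤ π t x₁ := fun t => by
    rw [m1]; exact cfcₙ_nonneg fun s _ => ramp_nonneg _ _ _
  have n2 : ∀ t, 0 ≤ π t w := fun t => by
    rw [m2]; exact cfcₙ_nonneg fun s _ => ramp_nonneg _ _ _
  have o12 : ∀ t, π t x₁ * π t w = 0 := fun t => by
    rw [m1, m2, ← cfcₙ_mul (fun s : ℝ => ramp 0 κ s) (fun s : ℝ => ramp 0 κ (-s)) (π t h)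
      c1.continuousOn z1 c2.continuousOn z2]
    have : (fun s : ℝ => ramp 0 κ s * ramp 0 κ (-s)) = fun _ => 0 := by
      funext s
      rcases le_total s 0 with h1 | h1
      · rw [ramp_eq_zero hκ h1, zero_mul]
      · rw [ramp_eq_zero hκ (neg_nonpos.2 h1), mul_zero]
    rw [this]
    exact cfcₙ_const_zero ℝ _
  have r1 : ∀ t, κ < ‖π t hp‖ → ‖π t x₁‖ = 1 := fun t ht => by
    rw [m1]
    exact norm_ramp (hsa t) continuous_id rfl hκ (by rw [mp] at ht; exact ht)
  have r2 : ∀ t, κ < ‖π t hq‖ → ‖π t w‖ = 1 := fun t ht => by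
    rw [m2]
    exact norm_ramp (hsa t) continuous_neg neg_zero hκ (by rw [mq] at ht; exact ht)
  have hproj : ∀ t ∈ V, Proj fun j => π t (P j) := fun t ht =>
    { sa := fun j => (hPs j).map (π t)
      mul := (hPV t ht).1
      ne := (hPV t ht).2 }
  refine glue_abs hn hm hc hX (a := a) hS hK (W := {t | κ < ‖π t hp‖ ∧ κ < ‖π t hq‖}) (V := V)
    ((isOpen_lt continuous_const (hc hp)).inter (isOpen_lt continuous_const (hc hq))) hV
    (fun t ht => hκS t ht) hKV (x₁ := x₁) (F := FF w) (T₂ := P 1) (T₃ := P 0)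
    (gg := fun k => GG w P k) (xi := fun k => xi w P k) (e := fun k => ee w P k)
    x₁s x₁a (cfcₙ_predicate (p := IsSelfAdjoint) _ _) (FF_her ws wa) (hPs 1) (hPa 1) (hPs 0)
    (hPa 0) (fun k => xi_sa w P k) (fun k => xi_her ws wa hPs hPa k)
    (fun k => cfcₙ_predicate (p := IsSelfAdjoint) _ _) (fun k => ee_her asa ws wa hPs hPa k)
    ?_ ?_ ?_
  · rintro t ⟨ht1, ht2⟩
    refine ⟨n1 t, r1 t ht1, ?_, ?_, ?_⟩
    · rw [map_FF (π t) ws]; exact FF_nonneg _
    · rw [map_FF (π t) ws]; exact FF_norm (n2 t) (r2 t ht2)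
    · rw [map_FF (π t) ws]
      exact mul_her (o12 t) (FF_her (ws.map (π t)) (self_mem_her (ws.map (π t))))
  · intro t ht
    have hp' := hproj t ht
    refine ⟨hp'.nonneg 1, hp'.norm 1, hp'.nonneg 0, hp'.norm 0, ?_⟩
    have := hp'.mul 1 0
    rwa [if_neg one_ne_zero] at this
  · rintro t ⟨ht1, ht2⟩ htV N c d hc' hd'
    have hL := letters (hproj t htV) (n1 t) (r1 t ht1) (n2 t) (r2 t ht2) (o12 t) (N := N)
      (c := c) (a := d) (fun k _ hk => by
        have := hc' k hk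
        rw [map_GG (π t) ws P k] at this
        exact this) (fun k _ hk => by
        have := hd' k hk
        rw [map_GG (π t) ws P k] at this
        refine this.trans_le (le_of_eq ?_)
        rw [bb]; ring)
    rw [qq_eq] at hL
    have e2 : (fun k => π t (xi w P k)) = xi (π t w) (fun j => π t (P j)) := by
      funext k; exact map_xi (π t) ws hPs k
    have e3 : (fun k => π t (ee w P k)) = ee (π t w) (fun j => π t (P j)) := by
      funext k; exact map_ee (π t) ws hPs k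
    show Letters N c d qq (π t x₁) (π t (FF w)) (π t (P 1)) (π t (P 0))
      (fun k => π t (xi w P k)) (fun k => π t (ee w P k))
    rw [e2, e3, map_FF (π t) ws]
    exact hL

end Vale.Agent.P133.W634.H766
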