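import Vale.Agent.P133.R2.H474.NS2
import Vale.Agent.P133.R2.H28.Defs
import Vale.Agent.P133.W634.Fibre

/-!
P133 (helper634's line W634, block [A], helper766): multiplication by functions, the part of the
gluing where only two letters are alive, and the numbers.
-/

open scoped ComplexOrder
open Finset

namespace Vale.Agent.P133.W634.H766

open Vale.Agent.P133.R2.H28 Vale.Agent.P133.R2.H474 Vale.Agent.P133.W634

universe u v

section

variable {X : Type v} [TopologicalSpace X] {B : X → Type u} [∀ t, NonUnitalCStarAlgebra (B t)]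
  {A : Type u} [NonUnitalCStarAlgebra A]

/-- multiplication of a selfadjoint element of `her a` by a function with values in `[0, 2]` -/
theorem mul_fun {π : ∀ t, A →⋆ₙₐ[ℂ] B t}
    (hn : ∀ (a : A) (r : ℝ), 0 ≤ r → (∀ t, ‖π t a‖ ≤ r) → ‖a‖ ≤ r)
    (hm : ∀ f : C(X, ℝ), (∀ t, 0 ≤ f t ∧ f t ≤ 1) → ∀ a : A, ∃ b : A,
      ∀ t, π t b = (f t : ℂ) • π t a)
    {a : A} (f : C(X, ℝ)) (hf : ∀ t, 0 ≤ f t ∧ f t ≤ 2) {e : A} (he : IsSelfAdjoint e)
    (hea : e ∈ her a) : ∃ b : A, IsSelfAdjoint b ∧ b ∈ her a ∧ ∀ t, π t b = f t • π t e := by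
  let g : C(X, ℝ) := ⟨fun t => f t / 2, f.continuous.div_const 2⟩
  have hgf : ∀ t, g t = f t / 2 := fun _ => rfl
  have hg : ∀ t, 0 ≤ g t ∧ g t ≤ 1 := fun t => by
    rw [hgf]
    constructor <;> linarith [(hf t).1, (hf t).2]
  obtain ⟨b, hb⟩ := hm g hg ((2 : ℂ) • e)
  have hb' : ∀ t, π t b = f t • π t e := fun t => by
    rw [hb, map_smul, smul_smul, hgf, ← Complex.coe_smul]
    congr 1
    push_cast
    ring
  have hz : ∀ b : A, (∀ t, π t b = 0) → b = 0 := fun b hb => by
    have := hn b 0 le_rfl fun t => by rw [hb t, norm_zero]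
    exact norm_le_zero_iff.1 this
  refine ⟨b, ?_, ?_, hb'⟩
  · show star b = b
    rw [← sub_eq_zero]
    refine hz _ fun t => ?_
    have h1 : star (f t • π t e) = f t • star (π t e) := by
      rw [star_smul, star_trivial]
    have h2 : star (π t e) = π t e := by rw [← map_star (π t) e, he.star_eq]
    have h3 : π t (star b) = star (π t b) := map_star (π t) b
    rw [map_sub, h3, hb', h1, h2, sub_self]
  · refine her_lim fun ε hε => ?_
    obtain ⟨_, ⟨w, rfl⟩, h1⟩ := Metric.mem_closure_iff.1 (mem_her.1 hea) (ε / 4) (by positivity)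
    obtain ⟨w', hw'⟩ := hm g hg ((2 : ℂ) • w)
    refine ⟨a * w' * a, her_self a w', ?_⟩
    rw [dist_eq_norm] at h1
    rw [norm_sub_rev]
    have h2 : ‖b - a * w' * a‖ ≤ ε / 2 := by
      refine hn _ _ (half_pos hε).le fun t => ?_
      have h3 : π t (b - a * w' * a) = f t • π t (e - a * w * a) := by
        have h4 : π t w' = f t • π t w := by
          rw [hw', map_smul, smul_smul, hgf, ← Complex.coe_smul]
          congr 1
          push_cast
          ring
        rw [map_sub, map_mul, map_mul, hb', h4, map_sub, map_mul, map_mul, smul_sub,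
          mul_smul_comm, smul_mul_assoc]
      rw [h3, norm_smul, Real.norm_eq_abs, abs_of_nonneg (hf t).1]
      have h5 : ‖π t (e - a * w * a)‖ ≤ ‖e - a * w * a‖ :=
        NonUnitalStarAlgHom.norm_apply_le _ _
      nlinarith [norm_nonneg (π t (e - a * w * a)), (hf t).1, (hf t).2]
    linarith

end

section

variable {B : Type u} [NonUnitalCStarAlgebra B] [PartialOrder B] [StarOrderedRing B]

/-- two orthogonal positive letters -/
theorem two_letters {x y : B} (hx : 0 ≤ x) (hxn : ‖x‖ = 1) (hy : 0 ≤ y) (hyn : ‖y‖ = 1)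
    (hxy : x * y = 0) {u v : ℝ} (hu : 0 < u) (hv : 0 < v) :
    ¬ u • x - v • y ≤ 0 ∧ ¬ 0 ≤ u • x - v • y := by
  have hyx : y * x = 0 := by
    have := congrArg star hxy
    rwa [star_mul, star_zero, (IsSelfAdjoint.of_nonneg hx).star_eq,
      (IsSelfAdjoint.of_nonneg hy).star_eq] at this
  constructor
  · intro h
    rw [sub_nonpos] at h
    have t := norm_test (y := x) (z := x) (κ := u) (IsSelfAdjoint.of_nonneg hx) hx hu.le le_rfl h
    rw [mul_smul_comm, hxy, smul_zero, zero_mul, norm_zero] at t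
    have := one_le_norm_cube (IsSelfAdjoint.of_nonneg hx) hxn
    nlinarith
  · intro h
    rw [sub_nonneg] at h
    have t := norm_test (y := y) (z := y) (κ := v) (IsSelfAdjoint.of_nonneg hy) hy hv.le le_rfl h
    rw [mul_smul_comm, hyx, smul_zero, zero_mul, norm_zero] at t
    have := one_le_norm_cube (IsSelfAdjoint.of_nonneg hy) hyn
    nlinarith

end

/-- `1` on `[1, 2]`, `0` off `(1/2, 5/2)` -/
noncomputable def rho (s : ℝ) : ℝ := max 0 (min 1 (min (2 * s - 1) (5 - 2 * s)))

theorem rho_cont : Continuous rho := by unfold rho; fun_prop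

theorem rho_nonneg (s : ℝ) : 0 ≤ rho s := le_max_left _ _

theorem rho_le (s : ℝ) : rho s ≤ 1 := max_le zero_le_one (min_le_left _ _)

theorem rho_pos {s : ℝ} (h1 : 1 / 2 < s) (h2 : s < 5 / 2) : 0 < rho s :=
  lt_max_of_lt_right (lt_min one_pos (lt_min (by linarith) (by linarith)))

theorem rho_one {s : ℝ} (h1 : 1 ≤ s) (h2 : s ≤ 2) : rho s = 1 := by
  have : min 1 (min (2 * s - 1) (5 - 2 * s)) = 1 :=
    min_eq_left (le_min (by linarith) (by linarith))
  rw [rho, this, max_eq_right zero_le_one]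

theorem rho_zero {s : ℝ} (h : s ≤ 1 / 2 ∨ 5 / 2 ≤ s) : rho s = 0 := by
  refine max_eq_left ?_
  rcases h with h | h
  · exact (min_le_right _ _).trans ((min_le_left _ _).trans (by linarith))
  · exact (min_le_right _ _).trans ((min_le_right _ _).trans (by linarith))

/-- the constants of the ladder -/
noncomputable def qq (k : ℕ) : ℝ := (1 / 2) ^ k / 50

theorem qq_nonneg (k : ℕ) : 0 ≤ qq k := by unfold qq; positivity

theorem qq_anti (k l : ℕ) (h : k ≤ l) : qq l ≤ qq k := by
  unfold qq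
  have := pow_le_pow_of_le_one (by norm_num : (0 : ℝ) ≤ 1 / 2) (by norm_num) h
  linarith

theorem qq_sum (N : ℕ) : ∑ k ∈ range N, qq k ≤ 1 / 25 := by
  have h : ∀ N : ℕ, ∑ k ∈ range N, qq k = 1 / 25 - (1 / 2) ^ N / 25 := by
    intro N
    induction N with
    | zero => simp
    | succ n ih =>
      rw [sum_range_succ, ih, qq, pow_succ]
      ring
  rw [h]
  have : (0 : ℝ) ≤ (1 / 2) ^ N / 25 := by positivity
  linarith

theorem qq_zero : qq 0 ≤ 1 / 50 := by norm_num [qq]

end Vale.Agent.P133.W634.H766
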